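import Vale.Agent.P130.Main

/-!
Systems with absolutely continuous spectrum of bounded multiplicity have boundedly many
independent factors; simple Lebesgue spectrum allows no two.
-/

namespace Vale.Agent.Results.P130.IndependentFactorBound

open MeasureTheory ProbabilityTheory Vale.Agent.P130

/-- With absolutely continuous spectrum of multiplicity at most `N`, `k` independent nontrivial
factors force `2 ^ k ≤ N + k`, and simple Lebesgue spectrum excludes two. -/
theorem result.{u} :
    (∀ (X : Type u) (mX : MeasurableSpace X) (μ : Measure X) [IsProbabilityMeasure μ] (T : X → X)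
      (N : ℕ), MeasurePreserving T μ μ → ACSpectrumAtMost N T μ →
      ∀ (k : ℕ) (A : Fin k → MeasurableSpace X), 0 < k → (∀ i, A i ≤ mX) →
        (∀ i, MeasurableSpace.comap T (A i) ≤ A i) → iIndep A μ →
        (∀ i, ∃ s, MeasurableSet[A i] s ∧ 0 < μ s ∧ μ s < 1) → 2 ^ k ≤ N + k) ∧
    (∀ (X : Type u) (mX : MeasurableSpace X) (μ : Measure X) [IsProbabilityMeasure μ] (T : X → X),
      MeasurePreserving T μ μ → SimpleLebesgueSpectrum T μ →
      ¬ ∃ A B : MeasurableSpace X, A ≤ mX ∧ B ≤ mX ∧ MeasurableSpace.comap T A ≤ A ∧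
        MeasurableSpace.comap T B ≤ B ∧ Indep A B μ ∧
        (∃ s, MeasurableSet[A] s ∧ 0 < μ s ∧ μ s < 1) ∧
        ∃ s, MeasurableSet[B] s ∧ 0 < μ s ∧ μ s < 1) := by
  refine ⟨fun X mX μ _ T N hT h k A hk hle hinv hind hnt => two_pow_le hT h hk A hle hinv hind hnt,
    fun X mX μ _ T hT h => ?_⟩
  rintro ⟨A, B, hA, hB, hA', hB', hAB, ⟨s, hs, hs0, hs1⟩, ⟨u, hu, hu0, hu1⟩⟩
  exact no_two_factors hT h A B hA hB hA' hB' hAB hs hs0 hs1 hu hu0 hu1

end Vale.Agent.Results.P130.IndependentFactorBound
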