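import Vale.Agent.P130.Rank.Main

/-!
A probability-preserving transformation with simple Lebesgue spectrum.
-/

open MeasureTheory

namespace Vale.Agent.Results.P130.SimpleLebesgueSpectrum

/-- An invertible measure-preserving transformation of a standard nonatomic probability space has a
mean-zero function whose orbit is an orthonormal basis of the mean-zero square-integrable
functions. -/
theorem result :
    ∃ (μ : Measure ℝ) (T : ℝ ≃ᵐ ℝ) (f : ℝ → ℂ),
      IsProbabilityMeasure μ ∧ NullSingletonClass μ ∧ MeasurePreserving T μ μ ∧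
      MemLp f 2 μ ∧ ∫ x, f x ∂μ = 0 ∧
      (∀ k : ℤ, ∫ x, f ((T.toEquiv ^ k) x) * (starRingEnd ℂ) (f x) ∂μ = if k = 0 then 1 else 0) ∧
      ∀ g : ℝ → ℂ, MemLp g 2 μ → ∫ x, g x ∂μ = 0 →
        (∀ k : ℤ, ∫ x, g x * (starRingEnd ℂ) (f ((T.toEquiv ^ k) x)) ∂μ = 0) → g =ᵐ[μ] 0 :=
  Vale.Agent.P130.Rank.simpleLebesgue

end Vale.Agent.Results.P130.SimpleLebesgueSpectrum
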